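import Mathlib.Analysis.InnerProductSpace.PiL2
import Mathlib.Topology.MetricSpace.Bounded
import Mathlib.Data.Fintype.Order
import Mathlib.Tactic.FieldSimp
import Mathlib.Tactic.Linarith
import Mathlib.Tactic.Positivity

/-!
P052: from the colouring statement on the unit sphere of `R^4` to the failure of Borsuk's
conjecture in every dimension at least 9.
-/

namespace Vale.Agent.P052.R2.H738

/-- the colouring statement (core). -/
def Core : Prop :=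
  ∀ (c : EuclideanSpace ℝ (Fin 4) → Fin 10) (ε : ℝ), 0 < ε → (∀ x, ‖x‖ = 1 → c (-x) = c x) →
    ∃ x y : EuclideanSpace ℝ (Fin 4), ‖x‖ = 1 ∧ ‖y‖ = 1 ∧ c x = c y ∧ |inner ℝ x y| ≤ ε

/-- the point `(y, h)`. -/
noncomputable def snocE {d : ℕ} (y : EuclideanSpace ℝ (Fin d)) (h : ℝ) :
    EuclideanSpace ℝ (Fin (d + 1)) :=
  WithLp.toLp 2 (Fin.snoc (α := fun _ => ℝ) (fun i => y i) h)

theorem dist_snocE_sq {d : ℕ} (y z : EuclideanSpace ℝ (Fin d)) (h k : ℝ) :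
    dist (snocE y h) (snocE z k) ^ 2 = dist y z ^ 2 + (h - k) ^ 2 := by
  rw [EuclideanSpace.dist_eq, EuclideanSpace.dist_eq,
    Real.sq_sqrt (Finset.sum_nonneg (fun _ _ => sq_nonneg _)),
    Real.sq_sqrt (Finset.sum_nonneg (fun _ _ => sq_nonneg _)), Fin.sum_univ_castSucc]
  simp only [snocE, Fin.snoc_castSucc, Real.dist_eq, sq_abs, Fin.snoc_last]

theorem dist_snocE {d : ℕ} (y z : EuclideanSpace ℝ (Fin d)) :
    dist (snocE y 0) (snocE z 0) = dist y z := by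
  have h1 : dist (snocE y 0) (snocE z 0) ^ 2 = dist y z ^ 2 := by
    rw [dist_snocE_sq]; ring
  exact (pow_left_inj₀ dist_nonneg dist_nonneg (by norm_num)).mp h1

/-- A compact set on a sphere of radius less than `D / √2`, with all distances at most `D`, such
that every cover by sets with all distances at most some `D' < D` has at least `k` members. -/
def SphC (d k : ℕ) : Prop :=
  ∃ (Y : Set (EuclideanSpace ℝ (Fin d))) (D ρ : ℝ) (c : EuclideanSpace ℝ (Fin d)),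
    IsCompact Y ∧ 0 < D ∧ 2 * ρ ^ 2 < D ^ 2 ∧ (∀ y ∈ Y, dist y c ^ 2 = ρ ^ 2) ∧
    (∀ y ∈ Y, ∀ z ∈ Y, dist y z ≤ D) ∧
    ∀ (m : ℕ) (P : Fin m → Set (EuclideanSpace ℝ (Fin d))) (D' : ℝ), D' < D →
      (∀ i, ∀ y ∈ P i, ∀ z ∈ P i, dist y z ≤ D') → Y ⊆ (⋃ i, P i) → k ≤ m

theorem SphC.succ {d k : ℕ} (h : SphC d k) : SphC (d + 1) (k + 1) := by
  obtain ⟨Y, D, ρ, c, hfin, hD, hρ, hc, hle, hcov⟩ := h
  have hpos : 0 < D ^ 2 - ρ ^ 2 := by nlinarith [sq_nonneg ρ]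
  set t : ℝ := Real.sqrt (D ^ 2 - ρ ^ 2) with ht
  have htpos : 0 < t := Real.sqrt_pos.mpr hpos
  have htsq : t ^ 2 = D ^ 2 - ρ ^ 2 := Real.sq_sqrt hpos.le
  have hDsq : D ^ 2 = t ^ 2 + ρ ^ 2 := by linarith only [htsq]
  have happ : ∀ y ∈ Y, dist (snocE c t) (snocE y 0) = D := by
    intro y hy
    have h1 : dist (snocE c t) (snocE y 0) ^ 2 = D ^ 2 := by
      rw [dist_snocE_sq, dist_comm, hc y hy, hDsq]
      ring
    exact (pow_left_inj₀ dist_nonneg hD.le (by norm_num)).mp h1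
  have hcont : Continuous (fun y : EuclideanSpace ℝ (Fin d) => snocE y 0) := by
    have : Isometry (fun y : EuclideanSpace ℝ (Fin d) => snocE y 0) :=
      Isometry.of_dist_eq dist_snocE
    exact this.continuous
  refine ⟨insert (snocE c t) ((fun y => snocE y 0) '' Y), D, D ^ 2 / (2 * t),
    snocE c ((D ^ 2 - 2 * ρ ^ 2) / (2 * t)), (hfin.image hcont).insert _, hD, ?_, ?_, ?_, ?_⟩
  · rw [div_pow, mul_pow, htsq]
    rw [mul_div_assoc', div_lt_iff₀ (by (clear * - hpos; positivity))]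
    nlinarith only [hρ]
  · rintro y (rfl | ⟨z, hz, rfl⟩)
    · rw [dist_snocE_sq, dist_self, hDsq]
      field_simp
      ring
    · rw [dist_snocE_sq, hc z hz]
      rw [hDsq]
      field_simp
      ring
  · rintro y (rfl | ⟨z, hz, rfl⟩) w (rfl | ⟨z', hz', rfl⟩)
    · rw [dist_self]; exact hD.le
    · exact (happ z' hz').le
    · rw [dist_comm]; exact (happ z hz).le
    · show dist (snocE z 0) (snocE z' 0) ≤ D
      rw [dist_snocE]
      exact hle z hz z' hz'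
  · intro m P D' hD' hP hsub
    have hz : snocE c t ∈ ⋃ i, P i := hsub (Set.mem_insert _ _)
    obtain ⟨i₀, hi₀⟩ := Set.mem_iUnion.mp hz
    obtain ⟨m', rfl⟩ : ∃ m', m = m' + 1 := ⟨m - 1, by have := i₀.pos; omega⟩
    have := hcov m' (fun i => (fun y => snocE y 0) ⁻¹' (P (i₀.succAbove i))) D' hD' ?_ ?_
    · omega
    · intro i y hy z hz'
      rw [← dist_snocE]
      exact hP _ _ hy _ hz'
    · intro y hy
      have h1 : snocE y 0 ∈ ⋃ i, P i := hsub (Set.mem_insert_of_mem _ ⟨y, hy, rfl⟩)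
      obtain ⟨j, hj⟩ := Set.mem_iUnion.mp h1
      have hne : j ≠ i₀ := by
        rintro rfl
        have h2 := hP j _ hi₀ _ hj
        rw [happ y hy] at h2
        exact absurd hD' (not_lt.mpr h2)
      obtain ⟨i, rfl⟩ := Fin.exists_succAbove_eq hne
      exact Set.mem_iUnion.mpr ⟨i, hj⟩

theorem SphC.add {d k : ℕ} (h : SphC d k) (n : ℕ) : SphC (d + n) (k + n) := by
  induction n with
  | zero => exact h
  | succ n ih => exact ih.succ

theorem SphC.exists_set {d : ℕ} (h : SphC d (d + 2)) :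
    ∃ Y : Set (EuclideanSpace ℝ (Fin d)), IsCompact Y ∧ 0 < Metric.diam Y ∧
      ∀ P : Fin (d + 1) → Set (EuclideanSpace ℝ (Fin d)), (⋃ i, P i) = Y →
        ∃ i, Metric.diam (P i) = Metric.diam Y := by
  obtain ⟨Y, D, ρ, c, hcomp, hD, hρ, hc, hle, hcov⟩ := h
  have hdiamle : Metric.diam Y ≤ D := Metric.diam_le_of_forall_dist_le hD.le hle
  have hbd := hcomp.isBounded
  have hdpos : 0 < Metric.diam Y := by
    by_contra hcon
    have h0 : Metric.diam Y = 0 := le_antisymm (not_lt.mp hcon) Metric.diam_nonneg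
    have h1 := hcov 1 (fun _ => Y) 0 hD (by
      intro i y hy z hz
      have := Metric.dist_le_diam_of_mem hbd hy hz
      rw [h0] at this
      exact this) (by intro y hy; exact Set.mem_iUnion.mpr ⟨0, hy⟩)
    omega
  refine ⟨Y, hcomp, hdpos, ?_⟩
  intro P hP
  by_contra hcon
  push Not at hcon
  have hsub : ∀ i, P i ⊆ Y := by
    intro i
    rw [← hP]
    exact Set.subset_iUnion P i
  have hlt : ∀ i, Metric.diam (P i) < Metric.diam Y := fun i =>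
    lt_of_le_of_ne (Metric.diam_mono (hsub i) hbd) (hcon i)
  obtain ⟨i₀, hi₀⟩ := Finite.exists_max (fun i => Metric.diam (P i))
  have := hcov (d + 1) P (Metric.diam (P i₀)) (lt_of_lt_of_le (hlt i₀) hdiamle) ?_ hP.ge
  · omega
  · intro i y hy z hz
    exact (Metric.dist_le_diam_of_mem (hbd.subset (hsub i)) hy hz).trans (hi₀ i)

/-- the Veronese map `x ↦ x xᵀ` in orthonormal coordinates of the trace-free part. -/
noncomputable def ver (x : EuclideanSpace ℝ (Fin 4)) : EuclideanSpace ℝ (Fin 9) :=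
  WithLp.toLp 2 ![(x 0 ^ 2 + x 1 ^ 2 - x 2 ^ 2 - x 3 ^ 2) / 2,
    (x 0 ^ 2 - x 1 ^ 2 + x 2 ^ 2 - x 3 ^ 2) / 2,
    (x 0 ^ 2 - x 1 ^ 2 - x 2 ^ 2 + x 3 ^ 2) / 2,
    √2 * (x 0 * x 1), √2 * (x 0 * x 2), √2 * (x 0 * x 3),
    √2 * (x 1 * x 2), √2 * (x 1 * x 3), √2 * (x 2 * x 3)]

theorem continuous_ver : Continuous ver := by
  unfold ver
  apply (PiLp.continuous_toLp 2 _).comp
  apply continuous_pi
  intro i
  fin_cases i <;> simp <;> fun_prop

theorem ver_neg (x : EuclideanSpace ℝ (Fin 4)) : ver (-x) = ver x := by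
  unfold ver
  simp

theorem dist_ver_sq {x y : EuclideanSpace ℝ (Fin 4)} (hx : ‖x‖ = 1) (hy : ‖y‖ = 1) :
    dist (ver x) (ver y) ^ 2 = 2 - 2 * (inner ℝ x y) ^ 2 := by
  have hx2 : x 0 ^ 2 + x 1 ^ 2 + x 2 ^ 2 + x 3 ^ 2 = 1 := by
    have := EuclideanSpace.norm_sq_eq x
    rw [hx, Fin.sum_univ_four] at this
    simp only [Real.norm_eq_abs, sq_abs] at this
    linarith
  have hy2 : y 0 ^ 2 + y 1 ^ 2 + y 2 ^ 2 + y 3 ^ 2 = 1 := by
    have := EuclideanSpace.norm_sq_eq y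
    rw [hy, Fin.sum_univ_four] at this
    simp only [Real.norm_eq_abs, sq_abs] at this
    linarith
  have hs : √2 ^ 2 = (2 : ℝ) := Real.sq_sqrt (by norm_num)
  have hin : inner ℝ x y = x 0 * y 0 + x 1 * y 1 + x 2 * y 2 + x 3 * y 3 := by
    rw [PiLp.inner_apply, Fin.sum_univ_four]
    simp [mul_comm]
  rw [EuclideanSpace.dist_eq, Real.sq_sqrt (Finset.sum_nonneg (fun _ _ => sq_nonneg _)), hin]
  simp only [Real.dist_eq, sq_abs]
  have key : ∑ i, ((ver x).ofLp i - (ver y).ofLp i) ^ 2 =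
      ((x 0 ^ 2 + x 1 ^ 2 - x 2 ^ 2 - x 3 ^ 2) / 2 - (y 0 ^ 2 + y 1 ^ 2 - y 2 ^ 2 - y 3 ^ 2) / 2) ^ 2
      + ((x 0 ^ 2 - x 1 ^ 2 + x 2 ^ 2 - x 3 ^ 2) / 2 -
        (y 0 ^ 2 - y 1 ^ 2 + y 2 ^ 2 - y 3 ^ 2) / 2) ^ 2
      + ((x 0 ^ 2 - x 1 ^ 2 - x 2 ^ 2 + x 3 ^ 2) / 2 -
        (y 0 ^ 2 - y 1 ^ 2 - y 2 ^ 2 + y 3 ^ 2) / 2) ^ 2
      + 2 * ((x 0 * x 1 - y 0 * y 1) ^ 2 + (x 0 * x 2 - y 0 * y 2) ^ 2
        + (x 0 * x 3 - y 0 * y 3) ^ 2 + (x 1 * x 2 - y 1 * y 2) ^ 2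
        + (x 1 * x 3 - y 1 * y 3) ^ 2 + (x 2 * x 3 - y 2 * y 3) ^ 2) := by
    simp only [Fin.sum_univ_succ, Fin.sum_univ_zero, ver]
    simp
    linear_combination ((x 0 * x 1 - y 0 * y 1) ^ 2 + (x 0 * x 2 - y 0 * y 2) ^ 2
        + (x 0 * x 3 - y 0 * y 3) ^ 2 + (x 1 * x 2 - y 1 * y 2) ^ 2
        + (x 1 * x 3 - y 1 * y 3) ^ 2 + (x 2 * x 3 - y 2 * y 3) ^ 2) * hs
  rw [key]
  have hx0 : x 0 ^ 2 = 1 - x 1 ^ 2 - x 2 ^ 2 - x 3 ^ 2 := by linarith
  have hy0 : y 0 ^ 2 = 1 - y 1 ^ 2 - y 2 ^ 2 - y 3 ^ 2 := by linarith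
  have e1 : (x 0 ^ 2 + x 1 ^ 2 + x 2 ^ 2 + x 3 ^ 2) ^ 2 = 1 := by rw [hx2]; norm_num
  have e2 : (y 0 ^ 2 + y 1 ^ 2 + y 2 ^ 2 + y 3 ^ 2) ^ 2 = 1 := by rw [hy2]; norm_num
  have e3 : ((x 0 ^ 2 + x 1 ^ 2 + x 2 ^ 2 + x 3 ^ 2) - (y 0 ^ 2 + y 1 ^ 2 + y 2 ^ 2 + y 3 ^ 2)) ^ 2
      = 0 := by rw [hx2, hy2]; norm_num
  linear_combination e1 + e2 - e3 / 4

/-- the base case: dimension 9. -/
theorem sphC_nine (hcore : Core) : SphC 9 11 := by
  have hs : √2 ^ 2 = (2 : ℝ) := Real.sq_sqrt (by norm_num)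
  have hs0 : 0 < √(2 : ℝ) := Real.sqrt_pos.mpr (by norm_num)
  refine ⟨ver '' Metric.sphere 0 1, √2, √3 / 2, 0, (isCompact_sphere 0 1).image continuous_ver,
    hs0, ?_, ?_, ?_, ?_⟩
  · rw [div_pow, Real.sq_sqrt (by norm_num), Real.sq_sqrt (by norm_num)]
    norm_num
  · rintro _ ⟨x, hx, rfl⟩
    rw [mem_sphere_zero_iff_norm] at hx
    have hx2 : x 0 ^ 2 + x 1 ^ 2 + x 2 ^ 2 + x 3 ^ 2 = 1 := by
      have := EuclideanSpace.norm_sq_eq x
      rw [hx, Fin.sum_univ_four] at this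
      simp only [Real.norm_eq_abs, sq_abs] at this
      linarith
    rw [dist_zero_right, EuclideanSpace.norm_sq_eq]
    simp only [Real.norm_eq_abs, sq_abs]
    rw [div_pow, Real.sq_sqrt (by norm_num)]
    have key : ∑ i, ((ver x).ofLp i) ^ 2 =
        ((x 0 ^ 2 + x 1 ^ 2 - x 2 ^ 2 - x 3 ^ 2) / 2) ^ 2
        + ((x 0 ^ 2 - x 1 ^ 2 + x 2 ^ 2 - x 3 ^ 2) / 2) ^ 2
        + ((x 0 ^ 2 - x 1 ^ 2 - x 2 ^ 2 + x 3 ^ 2) / 2) ^ 2
        + 2 * ((x 0 * x 1) ^ 2 + (x 0 * x 2) ^ 2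
          + (x 0 * x 3) ^ 2 + (x 1 * x 2) ^ 2
          + (x 1 * x 3) ^ 2 + (x 2 * x 3) ^ 2) := by
      simp only [Fin.sum_univ_succ, Fin.sum_univ_zero, ver]
      simp
      linear_combination ((x 0 * x 1) ^ 2 + (x 0 * x 2) ^ 2
          + (x 0 * x 3) ^ 2 + (x 1 * x 2) ^ 2
          + (x 1 * x 3) ^ 2 + (x 2 * x 3) ^ 2) * hs
    rw [key]
    have e1 : (x 0 ^ 2 + x 1 ^ 2 + x 2 ^ 2 + x 3 ^ 2) ^ 2 = 1 := by rw [hx2]; norm_num
    linear_combination 3 / 4 * e1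
  · rintro _ ⟨x, hx, rfl⟩ _ ⟨y, hy, rfl⟩
    rw [mem_sphere_zero_iff_norm] at hx hy
    have h1 : dist (ver x) (ver y) ^ 2 ≤ √2 ^ 2 := by
      rw [dist_ver_sq hx hy, hs]
      nlinarith [sq_nonneg (inner ℝ x y)]
    exact (pow_le_pow_iff_left₀ dist_nonneg hs0.le (by norm_num)).mp h1
  · intro m P D' hD' hP hsub
    by_contra hm
    push Not at hm
    have hm' : m ≤ 10 := by omega
    -- a point of the set shows that m is positive and D' nonnegative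
    classical
    let g : EuclideanSpace ℝ (Fin 9) → Fin 10 := fun p =>
      if h : ∃ i, p ∈ P i then Fin.castLE hm' h.choose else 0
    have hg : ∀ p, (∃ i, p ∈ P i) → ∃ i, p ∈ P i ∧ g p = Fin.castLE hm' i := by
      intro p h
      refine ⟨h.choose, h.choose_spec, ?_⟩
      simp only [g, h, dite_true]
    have hmem : ∀ x : EuclideanSpace ℝ (Fin 4), ‖x‖ = 1 → ∃ i, ver x ∈ P i := by
      intro x hx
      have := hsub ⟨x, mem_sphere_zero_iff_norm.mpr hx, rfl⟩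
      exact Set.mem_iUnion.mp this
    set e : EuclideanSpace ℝ (Fin 4) := EuclideanSpace.single 0 1 with he
    have hen : ‖e‖ = 1 := by rw [he]; simp
    have hD0 : 0 ≤ D' := by
      obtain ⟨i, hi⟩ := hmem e hen
      have := hP i _ hi _ hi
      rwa [dist_self] at this
    have hD2 : D' ^ 2 < 2 := by
      rw [← hs]
      exact pow_lt_pow_left₀ hD' hD0 (by norm_num)
    obtain ⟨x, y, hx, hy, hxy, hin⟩ := hcore (fun x => g (ver x)) (√((2 - D' ^ 2) / 4))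
      (Real.sqrt_pos.mpr (by linarith)) (fun x _ => by simp only [ver_neg])
    obtain ⟨i, hi, hgi⟩ := hg _ (hmem x hx)
    obtain ⟨j, hj, hgj⟩ := hg _ (hmem y hy)
    have hij : i = j := by
      rw [hgi, hgj] at hxy
      exact Fin.castLE_injective hm' hxy
    subst hij
    have h1 := hP i _ hi _ hj
    have h2 : dist (ver x) (ver y) ^ 2 ≤ D' ^ 2 :=
      pow_le_pow_left₀ dist_nonneg h1 2
    rw [dist_ver_sq hx hy] at h2
    have h3 : (inner ℝ x y) ^ 2 ≤ (2 - D' ^ 2) / 4 := by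
      rw [← sq_abs]
      calc |inner ℝ x y| ^ 2 ≤ (√((2 - D' ^ 2) / 4)) ^ 2 :=
            pow_le_pow_left₀ (abs_nonneg _) hin 2
        _ = (2 - D' ^ 2) / 4 := Real.sq_sqrt (by linarith)
    linarith

/-- final assembly: the core implies the failure of Borsuk's conjecture for all `d ≥ 9`. -/
theorem borsuk_of_core (hcore : Core) : ∀ d : ℕ, 9 ≤ d →
    ∃ Y : Set (EuclideanSpace ℝ (Fin d)), IsCompact Y ∧ 0 < Metric.diam Y ∧
      ∀ P : Fin (d + 1) → Set (EuclideanSpace ℝ (Fin d)), (⋃ i, P i) = Y →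
        ∃ i, Metric.diam (P i) = Metric.diam Y := by
  intro d hd
  obtain ⟨n, rfl⟩ := Nat.exists_eq_add_of_le hd
  apply SphC.exists_set
  have := (sphC_nine hcore).add n
  have h2 : 9 + n + 2 = 11 + n := by omega
  rw [h2]
  exact this

end Vale.Agent.P052.R2.H738
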